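import Vale.Agent.P176.Main

/-!
A finite-dimensional algebra over the rationals with infinite little finitistic dimension.
-/

namespace Vale.Agent.Results.P176.FinitisticCounterexample

open CategoryTheory Vale.Agent.P176

/-- There is a finite-dimensional `ℚ`-algebra with finitely generated modules of finite, but
arbitrarily large, projective dimension. -/
theorem result :
    ∃ (A : Type) (_ : Ring A) (_ : Algebra ℚ A), Module.Finite ℚ A ∧
      ∀ n : ℕ, ∃ M : ModuleCat.{0} A, Module.Finite A M ∧
        ∃ d : ℕ, n ≤ d ∧ projectiveDimension M = (d : WithBot ℕ∞) := by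
  refine ⟨tw.Alg, inferInstance, inferInstance, inferInstance, fun n =>
    ⟨ModuleCat.of tw.Alg (Twist.Res tw (Fn n)), tw.finite_res, 2 * n + 4, by omega, ?_⟩⟩
  refine le_antisymm ?_ ?_
  · rw [projectiveDimension_le_iff]
    exact (pd_Fn n).1
  · rw [projectiveDimension_ge_iff]
    exact (pd_Fn n).2

end Vale.Agent.Results.P176.FinitisticCounterexample
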